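import Vale.Agent.P216.H126U.U4
import Mathlib.Geometry.Manifold.Riemannian.Basic

/-!
# Riemannian manifolds with finite distances are path connected
-/

open Set Topology Bundle Manifold
open scoped ContDiff

namespace Vale.Agent.P216.H126U

theorem joined_of_riemannian (V : Type) [NormedAddCommGroup V] [NormedSpace ℝ V]
    {M : Type} [MetricSpace M] [ChartedSpace V M]
    [RiemannianBundle (fun x : M => TangentSpace 𝓘(ℝ, V) x)]
    [IsRiemannianManifold 𝓘(ℝ, V) M] (x y : M) : Joined x y := by
  have h1 : riemannianEDist 𝓘(ℝ, V) x y < ⊤ := by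
    rw [← IsRiemannianManifold.out x y]
    exact edist_lt_top x y
  rw [riemannianEDist_def, iInf_lt_iff] at h1
  obtain ⟨γ, -⟩ := h1
  exact ⟨γ⟩

theorem preconnectedSpace_of_riemannian (V : Type) [NormedAddCommGroup V] [NormedSpace ℝ V]
    {M : Type} [MetricSpace M] [ChartedSpace V M]
    [RiemannianBundle (fun x : M => TangentSpace 𝓘(ℝ, V) x)]
    [IsRiemannianManifold 𝓘(ℝ, V) M] : PreconnectedSpace M := by
  rcases isEmpty_or_nonempty M with h | h
  · infer_instance
  · have : PathConnectedSpace M := ⟨h, joined_of_riemannian V⟩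
    infer_instance

theorem pathConnectedSpace_of_riemannian (V : Type) [NormedAddCommGroup V] [NormedSpace ℝ V]
    {M : Type} [MetricSpace M] [ChartedSpace V M]
    [RiemannianBundle (fun x : M => TangentSpace 𝓘(ℝ, V) x)]
    [IsRiemannianManifold 𝓘(ℝ, V) M] [h : Nonempty M] : PathConnectedSpace M :=
  ⟨h, joined_of_riemannian V⟩

/-- **Universal coverings of closed Riemannian manifolds with finite fundamental group.** -/
theorem exists_universal_cover_riemannian (V : Type) [NormedAddCommGroup V] [NormedSpace ℝ V]
    [FiniteDimensional ℝ V] {M : Type} [MetricSpace M] [CompactSpace M] [ChartedSpace V M]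
    [RiemannianBundle (fun x : M => TangentSpace 𝓘(ℝ, V) x)]
    [IsRiemannianManifold 𝓘(ℝ, V) M] (x₀ : M) [Finite (FundamentalGroup M x₀)] :
    ∃ (X : Type) (_ : TopologicalSpace X) (_ : CompactSpace X) (_ : T2Space X)
      (_ : SimplyConnectedSpace X) (q : X → M), IsCoveringMap q ∧ Function.Surjective q := by
  have := preconnectedSpace_of_riemannian V (M := M)
  exact exists_universal_cover V x₀

end Vale.Agent.P216.H126U
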