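import Mathlib.AlgebraicTopology.FundamentalGroupoid.SimplyConnected
import Mathlib.Topology.Covering.Basic
import Mathlib.Topology.Homotopy.Lifting
import Mathlib.Topology.FiberBundle.Basic

/-! Universal covering, part 1: classes of paths as elements of a fixed group. -/

namespace Vale.Agent.P216.H126U

open Topology

section pi1
variable {M : Type} [TopologicalSpace M]

/-- the fundamental group, with the product `p * q = p.trans q` -/
abbrev Pi1 (x₀ : M) : Type := Path.Homotopic.Quotient x₀ x₀

variable {x₀ : M}

noncomputable instance : Group (Pi1 x₀) where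
  mul p q := Path.Homotopic.Quotient.trans p q
  one := Path.Homotopic.Quotient.refl x₀
  inv p := Path.Homotopic.Quotient.symm p
  mul_assoc p q r := Path.Homotopic.Quotient.trans_assoc p q r
  one_mul p := Path.Homotopic.Quotient.refl_trans p
  mul_one p := Path.Homotopic.Quotient.trans_refl p
  inv_mul_cancel p := Path.Homotopic.Quotient.symm_trans p

theorem Pi1.mul_def (p q : Pi1 x₀) : p * q = Path.Homotopic.Quotient.trans p q := rfl
theorem Pi1.one_def : (1 : Pi1 x₀) = Path.Homotopic.Quotient.refl x₀ := rfl

instance : TopologicalSpace (Pi1 x₀) := ⊥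
instance : DiscreteTopology (Pi1 x₀) := ⟨rfl⟩

variable [PathConnectedSpace M] (x₀)

/-- chosen classes of paths from the base point -/
noncomputable def bt (x : M) : Path.Homotopic.Quotient x₀ x :=
  Path.Homotopic.Quotient.mk (PathConnectedSpace.somePath x₀ x)

/-- classes of paths as elements of the fundamental group -/
noncomputable def pc {x y : M} (p : Path.Homotopic.Quotient x y) : Pi1 x₀ :=
  Path.Homotopic.Quotient.trans (Path.Homotopic.Quotient.trans (bt x₀ x) p) (Path.Homotopic.Quotient.symm (bt x₀ y))

theorem pc_trans {x y z : M} (p : Path.Homotopic.Quotient x y) (q : Path.Homotopic.Quotient y z) :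
    pc x₀ (Path.Homotopic.Quotient.trans p q) = pc x₀ p * pc x₀ q := by
  rw [Pi1.mul_def]
  unfold pc
  simp only [Path.Homotopic.Quotient.trans_assoc]
  congr 2
  rw [← Path.Homotopic.Quotient.trans_assoc (Path.Homotopic.Quotient.symm (bt x₀ y)) (bt x₀ y), Path.Homotopic.Quotient.symm_trans,
    Path.Homotopic.Quotient.refl_trans]

theorem pc_refl (x : M) : pc x₀ (Path.Homotopic.Quotient.refl x) = 1 := by
  rw [Pi1.one_def]
  unfold pc
  rw [Path.Homotopic.Quotient.trans_refl, Path.Homotopic.Quotient.trans_symm]

/-- the path class with given group element -/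
noncomputable def cp {x y : M} (g : Pi1 x₀) : Path.Homotopic.Quotient x y :=
  Path.Homotopic.Quotient.trans (Path.Homotopic.Quotient.trans (Path.Homotopic.Quotient.symm (bt x₀ x)) g) (bt x₀ y)

theorem cp_pc {x y : M} (p : Path.Homotopic.Quotient x y) : cp x₀ (pc x₀ p) = p := by
  unfold cp pc
  simp only [Path.Homotopic.Quotient.trans_assoc]
  rw [Path.Homotopic.Quotient.symm_trans, Path.Homotopic.Quotient.trans_refl, ← Path.Homotopic.Quotient.trans_assoc, Path.Homotopic.Quotient.symm_trans,
    Path.Homotopic.Quotient.refl_trans]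

theorem pc_cp {x y : M} (g : Pi1 x₀) : pc x₀ (cp x₀ g : Path.Homotopic.Quotient x y) = g := by
  unfold cp pc
  simp only [Path.Homotopic.Quotient.trans_assoc]
  rw [Path.Homotopic.Quotient.trans_symm, Path.Homotopic.Quotient.trans_refl, ← Path.Homotopic.Quotient.trans_assoc, Path.Homotopic.Quotient.trans_symm,
    Path.Homotopic.Quotient.refl_trans]

theorem pc_inj {x y : M} {p q : Path.Homotopic.Quotient x y} (h : pc x₀ p = pc x₀ q) : p = q := by
  rw [← cp_pc x₀ p, h, cp_pc]

omit [PathConnectedSpace M] in
theorem map_trans' {A : Type} [TopologicalSpace A] (f : C(A, M)) {a b c : A}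
    (p : Path.Homotopic.Quotient a b) (q : Path.Homotopic.Quotient b c) :
    (Path.Homotopic.Quotient.trans p q).map f = Path.Homotopic.Quotient.trans (p.map f) (q.map f) := by
  induction p using Path.Homotopic.Quotient.ind with | mk p =>
  induction q using Path.Homotopic.Quotient.ind with | mk q =>
  rw [← Path.Homotopic.Quotient.mk_trans, ← Path.Homotopic.Quotient.mk_map, ← Path.Homotopic.Quotient.mk_map, ← Path.Homotopic.Quotient.mk_map,
    ← Path.Homotopic.Quotient.mk_trans, Path.map_trans]

omit [PathConnectedSpace M] in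
theorem map_refl' {A : Type} [TopologicalSpace A] (f : C(A, M)) (a : A) :
    (Path.Homotopic.Quotient.refl a).map f = Path.Homotopic.Quotient.refl (f a) := by
  rw [← Path.Homotopic.Quotient.mk_refl, ← Path.Homotopic.Quotient.mk_map]
  rfl

section sc
variable {A : Type} [TopologicalSpace A] [SimplyConnectedSpace A]

/-- transport along the (unique) path class from `a` to `b` -/
noncomputable def tp (f : C(A, M)) (a b : A) : Pi1 x₀ :=
  pc x₀ ((Path.Homotopic.Quotient.mk (PathConnectedSpace.somePath a b)).map f)

theorem tp_eq (f : C(A, M)) {a b : A} (p : Path.Homotopic.Quotient a b) :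
    pc x₀ (p.map f) = tp x₀ f a b := by
  unfold tp
  congr 2
  exact Subsingleton.elim _ _

theorem tp_trans (f : C(A, M)) (a b c : A) : tp x₀ f a b * tp x₀ f b c = tp x₀ f a c := by
  unfold tp
  rw [← pc_trans, ← map_trans', tp_eq]
  rfl

theorem tp_self (f : C(A, M)) (a : A) : tp x₀ f a a = 1 := by
  rw [← tp_eq x₀ f (Path.Homotopic.Quotient.refl a), map_refl', pc_refl]

theorem tp_comp {B : Type} [TopologicalSpace B] [SimplyConnectedSpace B] (f : C(B, M))
    (g : C(A, B)) (a b : A) : tp x₀ (f.comp g) a b = tp x₀ f (g a) (g b) := by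
  rw [← tp_eq x₀ f ((Path.Homotopic.Quotient.mk (PathConnectedSpace.somePath a b)).map g)]
  unfold tp
  rw [Path.Homotopic.Quotient.map_comp]

end sc

end pi1

end Vale.Agent.P216.H126U
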