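import Vale.Agent.P216.H126U.U3
import Mathlib.Analysis.Normed.Module.Ball.Homeomorph
import Mathlib.AlgebraicTopology.FundamentalGroupoid.FundamentalGroup
import Mathlib.Geometry.Manifold.ChartedSpace
import Mathlib.Topology.Separation.Regular

/-!
# Universal coverings of compact manifolds with finite fundamental group
-/

open Set Topology Metric

namespace Vale.Agent.P216.H126U

/-- Every point of a manifold has an open neighbourhood homeomorphic to `ℝ^n`. -/
theorem exists_param {V : Type} [NormedAddCommGroup V] [NormedSpace ℝ V] [FiniteDimensional ℝ V]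
    {M : Type} [TopologicalSpace M] [ChartedSpace V M] (x : M) :
    ∃ β : E (Module.finrank ℝ V) → M, IsOpenEmbedding β ∧ x ∈ range β := by
  let c := chartAt V x
  have hx : c x ∈ c.target := mem_chart_target V x
  obtain ⟨r, hr, hb⟩ := Metric.isOpen_iff.1 c.open_target _ hx
  let u : OpenPartialHomeomorph V V := OpenPartialHomeomorph.univBall (c x) r
  have hus : u.source = univ := OpenPartialHomeomorph.univBall_source _ _
  have hus' : ∀ z, z ∈ u.source := fun z => by rw [hus]; exact mem_univ z
  have hut : u.target = ball (c x) r := OpenPartialHomeomorph.univBall_target _ hr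
  let L : E (Module.finrank ℝ V) ≃L[ℝ] V := ContinuousLinearEquiv.ofFinrankEq (by simp)
  let w : OpenPartialHomeomorph (E (Module.finrank ℝ V)) M :=
    (L.toHomeomorph.toOpenPartialHomeomorph.trans u).trans c.symm
  have hws : w.source = univ := by
    ext y
    simp only [w, OpenPartialHomeomorph.trans_source, Homeomorph.toOpenPartialHomeomorph_source,
      hus, mem_inter_iff, mem_preimage, mem_univ, true_and, iff_true,
      OpenPartialHomeomorph.symm_source]
    refine hb ?_
    rw [← hut]
    exact u.map_source (hus' _)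
  refine ⟨w, w.isOpenEmbedding hws, L.symm 0, ?_⟩
  have h1 : u 0 = c x := OpenPartialHomeomorph.univBall_apply_zero _ _
  have h2 : w (L.symm 0) = c.symm (u (L (L.symm 0))) := rfl
  rw [h2, L.apply_symm_apply, h1]
  exact c.left_inv (mem_chart_source V x)

/-- The total space of a covering of a compact Hausdorff space with finite fibres is compact. -/
theorem compactSpace_of_covering {X M : Type} [TopologicalSpace X] [TopologicalSpace M]
    [CompactSpace M] [T2Space M] {f : X → M} (hf : IsCoveringMap f)
    (hfin : ∀ x, Finite (f ⁻¹' {x})) : CompactSpace X := by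
  have key : ∀ x : M, ∃ K ∈ 𝓝 x, IsCompact (f ⁻¹' K) := by
    intro x
    obtain ⟨hd, U, hxU, hU, -, H, hH⟩ := hf x
    have := hfin x
    obtain ⟨K, hK, hKU, hKc⟩ := local_compact_nhds (hU.mem_nhds hxU)
    refine ⟨K, hK, ?_⟩
    -- the preimage is the image of a compact set
    let g : U × (f ⁻¹' {x}) → X := fun p => (H.symm p : f ⁻¹' U)
    have hg : Continuous g := continuous_subtype_val.comp H.symm.continuous
    have hK' : IsCompact ((Subtype.val : U → M) ⁻¹' K) := by
      rw [Topology.IsInducing.subtypeVal.isCompact_iff]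
      rwa [Subtype.image_preimage_coe, inter_eq_right.2 hKU]
    have hc : IsCompact (((Subtype.val : U → M) ⁻¹' K) ×ˢ (univ : Set (f ⁻¹' {x}))) :=
      hK'.prod isCompact_univ
    have h1 : f ⁻¹' K = g '' (((Subtype.val : U → M) ⁻¹' K) ×ˢ (univ : Set (f ⁻¹' {x}))) := by
      ext y
      constructor
      · intro hy
        have hyU : y ∈ f ⁻¹' U := hKU hy
        refine ⟨H ⟨y, hyU⟩, ⟨?_, mem_univ _⟩, ?_⟩
        · change ((H ⟨y, hyU⟩).1 : M) ∈ K
          rw [hH]
          exact hy
        · change ((H.symm (H ⟨y, hyU⟩) : f ⁻¹' U) : X) = y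
          rw [H.symm_apply_apply]
      · rintro ⟨p, ⟨hp, -⟩, rfl⟩
        change f ((H.symm p : f ⁻¹' U) : X) ∈ K
        rw [← hH (H.symm p), H.apply_symm_apply]
        exact hp
    rw [h1]
    exact hc.image hg
  choose K hK hKc using key
  obtain ⟨t, -, ht⟩ := isCompact_univ.elim_nhds_subcover K fun x _ => hK x
  refine ⟨?_⟩
  refine (t.isCompact_biUnion fun x _ => hKc x).of_isClosed_subset isClosed_univ ?_
  intro y _
  obtain ⟨x, hx, hy⟩ := mem_iUnion₂.1 (ht (mem_univ (f y)))
  exact mem_iUnion₂.2 ⟨x, hx, hy⟩

theorem finite_pi1 {M : Type} [TopologicalSpace M] {x₀ : M} [Finite (FundamentalGroup M x₀)] :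
    Finite (Pi1 x₀) :=
  Finite.of_injective (fun p : Pi1 x₀ => FundamentalGroup.fromPath p) fun p q h => by
    simpa using congrArg FundamentalGroup.toPath h

/-- **Universal coverings.**  A compact connected manifold with finite fundamental group has a
compact simply connected covering space. -/
theorem exists_universal_cover (V : Type) [NormedAddCommGroup V] [NormedSpace ℝ V]
    [FiniteDimensional ℝ V] {M : Type} [TopologicalSpace M] [ChartedSpace V M] [CompactSpace M]
    [T2Space M] [PreconnectedSpace M] (x₀ : M) [Finite (FundamentalGroup M x₀)] :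
    ∃ (X : Type) (_ : TopologicalSpace X) (_ : CompactSpace X) (_ : T2Space X)
      (_ : SimplyConnectedSpace X) (q : X → M), IsCoveringMap q ∧ Function.Surjective q := by
  have : ConnectedSpace M := { toNonempty := ⟨x₀⟩ }
  choose ψ hψ hψ' using fun x : M => exists_param (V := V) x
  let A : Atlas (Module.finrank ℝ V) M M := ⟨ψ, hψ, fun x => ⟨x, hψ' x⟩⟩
  have := pathConnected A
  have hP : Finite (Pi1 x₀) := finite_pi1
  refine ⟨UX A x₀, inferInstance, ?_, t2, sc, pr A x₀, pr_cov, fun x => ⟨⟨x, (1 : Pi1 x₀)⟩, rfl⟩⟩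
  refine compactSpace_of_covering pr_cov fun x => ?_
  refine Finite.of_injective (fun e : (pr A x₀) ⁻¹' {x} => cl e.1) fun e e' h => ?_
  refine Subtype.ext (ext_cl ?_ h)
  exact (show pr A x₀ e.1 = x from e.2).trans (show pr A x₀ e'.1 = x from e'.2).symm

end Vale.Agent.P216.H126U
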